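import Mathlib
import Vale.Agent.Lib.Helper4.SurfaceCalculus

namespace Vale.Agent.Results.P229.OneCoordinateMetric

open scoped ContDiff
open Real Vale.Agent.Lib.Helper4

theorem result (E F G : ℝ → ℝ)
    (hE : ContDiff ℝ ((⊤ : ℕ∞) : WithTop ℕ∞) E) (hF : ContDiff ℝ ((⊤ : ℕ∞) : WithTop ℕ∞) F)
    (hG : ContDiff ℝ ((⊤ : ℕ∞) : WithTop ℕ∞) G)
    (hpos : ∀ x, 0 < E x ∧ 0 < E x * G x - F x ^ 2) (p : ℝ × ℝ) :
    ∃ U : Set (ℝ × ℝ), IsOpen U ∧ p ∈ U ∧
      ∃ Φ : ℝ × ℝ → EuclideanSpace ℝ (Fin 3), ContDiffOn ℝ ((⊤ : ℕ∞) : WithTop ℕ∞) Φ U ∧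
        ∀ q ∈ U,
          inner ℝ (fderiv ℝ Φ q (1, 0)) (fderiv ℝ Φ q (1, 0)) = E q.1 ∧
          inner ℝ (fderiv ℝ Φ q (1, 0)) (fderiv ℝ Φ q (0, 1)) = F q.1 ∧
          inner ℝ (fderiv ℝ Φ q (0, 1)) (fderiv ℝ Φ q (0, 1)) = G q.1 := by
  have hGpos : ∀ x, 0 < G x := by
    intro x
    obtain ⟨h1, h2⟩ := hpos x
    by_contra h
    push Not at h
    nlinarith [sq_nonneg (F x)]
  set A : ℝ → ℝ := fun x => Real.sqrt (G x) with hA
  have hAsm : ContDiff ℝ ∞ A := hG.sqrt (fun x => (hGpos x).ne')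
  set A' : ℝ → ℝ := deriv A with hA'
  have hA'sm : ContDiff ℝ ∞ A' := (contDiff_infty_iff_deriv.mp hAsm).2
  have hAderiv : ∀ x, HasDerivAt A (A' x) x :=
    fun x => ((contDiff_infty_iff_deriv.mp hAsm).1 x).hasDerivAt
  have hAsq : ∀ x, A x ^ 2 = G x := fun x => Real.sq_sqrt (hGpos x).le
  set ψ : ℝ → ℝ := fun x => F x / G x with hψ
  have hψsm : ContDiff ℝ ∞ ψ := hF.div hG (fun x => (hGpos x).ne')
  set x0 : ℝ := p.1 with hx0
  set φ : ℝ → ℝ := fun x => ∫ t in x0..x, ψ t with hφ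
  have hφsm : ContDiff ℝ ∞ φ := contDiff_primitive ψ hψsm x0
  have hφderiv : ∀ x, HasDerivAt φ (ψ x) x := by
    intro x
    have h1 := ((contDiff_infty_iff_deriv.mp hφsm).1 x).hasDerivAt
    have h2 : deriv φ x = ψ x := hψsm.continuous.deriv_integral ψ x0 x
    rwa [h2] at h1
  set D0 : ℝ := E x0 - F x0 ^ 2 / G x0 with hD0def
  have hD0 : 0 < D0 := by
    obtain ⟨h1, h2⟩ := hpos x0
    have hg := hGpos x0
    have : D0 = (E x0 * G x0 - F x0 ^ 2) / G x0 := by
      rw [hD0def]; field_simp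
    rw [this]; positivity
  set c : ℝ := Real.sqrt (D0 / (2 * (A' x0 ^ 2 + 1))) with hcdef
  have hc : 0 < c := Real.sqrt_pos.mpr (by positivity)
  have hc2 : c ^ 2 = D0 / (2 * (A' x0 ^ 2 + 1)) := Real.sq_sqrt (by positivity)
  set ρ : ℝ → ℝ := fun x => E x - F x ^ 2 / G x - c ^ 2 * A' x ^ 2 with hρ
  have hρsm : ContDiff ℝ ∞ ρ :=
    (hE.sub ((hF.pow 2).div hG (fun x => (hGpos x).ne'))).sub (contDiff_const.mul (hA'sm.pow 2))
  have hρ0 : 0 < ρ x0 := by
    have h1 : c ^ 2 * A' x0 ^ 2 ≤ D0 / 2 := by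
      rw [hc2, div_mul_eq_mul_div, div_le_div_iff₀ (by positivity) (by norm_num)]
      nlinarith [sq_nonneg (A' x0)]
    show 0 < E x0 - F x0 ^ 2 / G x0 - c ^ 2 * A' x0 ^ 2
    linarith
  set h : ℝ → ℝ := fun x => ∫ t in x0..x, Real.sqrt (ρ t) with hh
  have hhsm : ContDiffOn ℝ ∞ h {x | 0 < ρ x} := contDiffOn_primitive_sqrt ρ hρsm x0
  have hρcont : Continuous (fun t => Real.sqrt (ρ t)) := Real.continuous_sqrt.comp hρsm.continuous
  have hhderiv : ∀ x, HasDerivAt h (Real.sqrt (ρ x)) x := by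
    intro x
    have h1 := ((intervalIntegral.differentiable_integral_of_continuous (a := x0) hρcont) x).hasDerivAt
    have h2 : deriv h x = Real.sqrt (ρ x) := hρcont.deriv_integral _ x0 x
    rwa [h2] at h1
  have hUopen : IsOpen {q : ℝ × ℝ | 0 < ρ q.1} :=
    isOpen_lt continuous_const (hρsm.continuous.comp continuous_fst)
  set Φ : ℝ × ℝ → EuclideanSpace ℝ (Fin 3) := fun q =>
    !₂[c * A q.1 * Real.cos ((q.2 + φ q.1) / c),
       c * A q.1 * Real.sin ((q.2 + φ q.1) / c), h q.1] with hΦ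
  have hΦ0 : ∀ q, Φ q 0 = c * A q.1 * Real.cos ((q.2 + φ q.1) / c) := fun q => rfl
  have hΦ1 : ∀ q, Φ q 1 = c * A q.1 * Real.sin ((q.2 + φ q.1) / c) := fun q => rfl
  have hΦ2 : ∀ q, Φ q 2 = h q.1 := fun q => rfl
  have hΦsm : ContDiffOn ℝ ∞ Φ {q : ℝ × ℝ | 0 < ρ q.1} := by
    rw [contDiffOn_euclidean]
    intro i
    fin_cases i
    · have : ContDiff ℝ ∞ (fun q : ℝ × ℝ => c * A q.1 * Real.cos ((q.2 + φ q.1) / c)) := by
        have h1 : ContDiff ℝ ∞ (fun q : ℝ × ℝ => A q.1) := hAsm.comp contDiff_fst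
        have h2 : ContDiff ℝ ∞ (fun q : ℝ × ℝ => φ q.1) := hφsm.comp contDiff_fst
        exact (contDiff_const.mul h1).mul
          (Real.contDiff_cos.comp ((contDiff_snd.add h2).div_const c))
      exact this.contDiffOn
    · have : ContDiff ℝ ∞ (fun q : ℝ × ℝ => c * A q.1 * Real.sin ((q.2 + φ q.1) / c)) := by
        have h1 : ContDiff ℝ ∞ (fun q : ℝ × ℝ => A q.1) := hAsm.comp contDiff_fst
        have h2 : ContDiff ℝ ∞ (fun q : ℝ × ℝ => φ q.1) := hφsm.comp contDiff_fst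
        exact (contDiff_const.mul h1).mul
          (Real.contDiff_sin.comp ((contDiff_snd.add h2).div_const c))
      exact this.contDiffOn
    · exact hhsm.comp contDiff_fst.contDiffOn (fun q hq => hq)
  refine ⟨{q : ℝ × ℝ | 0 < ρ q.1}, hUopen, hρ0, Φ, hΦsm, ?_⟩
  rintro ⟨x, y⟩ hq
  have hq' : 0 < ρ x := hq
  have hdiff : DifferentiableAt ℝ Φ (x, y) :=
    (hΦsm.differentiableOn (by simp)).differentiableAt (hUopen.mem_nhds hq)
  have hcomp : ∀ i, DifferentiableAt ℝ (fun q => Φ q i) (x, y) :=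
    differentiableAt_euclidean.mp hdiff
  set θ : ℝ := (y + φ x) / c with hθ
  have hx0' : (fderiv ℝ Φ (x, y) (1, 0)) 0 = c * A' x * Real.cos θ - A x * ψ x * Real.sin θ := by
    rw [fderiv_euclidean_apply Φ _ _ hdiff 0]
    apply fderiv_apply_one_zero _ x y _ (hcomp 0)
    show HasDerivAt (fun t => c * A t * Real.cos ((y + φ t) / c)) _ x
    have h1 : HasDerivAt (fun t => c * A t) (c * A' x) x := (hAderiv x).const_mul c
    have h2 : HasDerivAt (fun t => (y + φ t) / c) (ψ x / c) x :=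
      ((hφderiv x).const_add y).div_const c
    have h3 : HasDerivAt (fun t => c * A t * Real.cos ((y + φ t) / c))
        (c * A' x * Real.cos θ + c * A x * (-Real.sin θ * (ψ x / c))) x := h1.mul h2.cos
    have h4 : c * A' x * Real.cos θ + c * A x * (-Real.sin θ * (ψ x / c))
        = c * A' x * Real.cos θ - A x * ψ x * Real.sin θ := by
      field_simp
      ring
    rw [h4] at h3
    exact h3
  have hx1' : (fderiv ℝ Φ (x, y) (1, 0)) 1 = c * A' x * Real.sin θ + A x * ψ x * Real.cos θ := by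
    rw [fderiv_euclidean_apply Φ _ _ hdiff 1]
    apply fderiv_apply_one_zero _ x y _ (hcomp 1)
    show HasDerivAt (fun t => c * A t * Real.sin ((y + φ t) / c)) _ x
    have h1 : HasDerivAt (fun t => c * A t) (c * A' x) x := (hAderiv x).const_mul c
    have h2 : HasDerivAt (fun t => (y + φ t) / c) (ψ x / c) x :=
      ((hφderiv x).const_add y).div_const c
    have h3 : HasDerivAt (fun t => c * A t * Real.sin ((y + φ t) / c))
        (c * A' x * Real.sin θ + c * A x * (Real.cos θ * (ψ x / c))) x := h1.mul h2.sin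
    have h4 : c * A' x * Real.sin θ + c * A x * (Real.cos θ * (ψ x / c))
        = c * A' x * Real.sin θ + A x * ψ x * Real.cos θ := by
      field_simp
    rw [h4] at h3
    exact h3
  have hx2' : (fderiv ℝ Φ (x, y) (1, 0)) 2 = Real.sqrt (ρ x) := by
    rw [fderiv_euclidean_apply Φ _ _ hdiff 2]
    apply fderiv_apply_one_zero _ x y _ (hcomp 2)
    show HasDerivAt (fun t => h t) _ x
    exact hhderiv x
  have hy0' : (fderiv ℝ Φ (x, y) (0, 1)) 0 = - (A x * Real.sin θ) := by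
    rw [fderiv_euclidean_apply Φ _ _ hdiff 0]
    apply fderiv_apply_zero_one _ x y _ (hcomp 0)
    show HasDerivAt (fun t => c * A x * Real.cos ((t + φ x) / c)) _ y
    have h2 : HasDerivAt (fun t => (t + φ x) / c) (1 / c) y :=
      ((hasDerivAt_id y).add_const (φ x)).div_const c
    have h3 : HasDerivAt (fun t => c * A x * Real.cos ((t + φ x) / c))
        (c * A x * (-Real.sin θ * (1 / c))) y := h2.cos.const_mul (c * A x)
    have h4 : c * A x * (-Real.sin θ * (1 / c)) = - (A x * Real.sin θ) := by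
      field_simp
    rw [h4] at h3
    exact h3
  have hy1' : (fderiv ℝ Φ (x, y) (0, 1)) 1 = A x * Real.cos θ := by
    rw [fderiv_euclidean_apply Φ _ _ hdiff 1]
    apply fderiv_apply_zero_one _ x y _ (hcomp 1)
    show HasDerivAt (fun t => c * A x * Real.sin ((t + φ x) / c)) _ y
    have h2 : HasDerivAt (fun t => (t + φ x) / c) (1 / c) y :=
      ((hasDerivAt_id y).add_const (φ x)).div_const c
    have h3 : HasDerivAt (fun t => c * A x * Real.sin ((t + φ x) / c))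
        (c * A x * (Real.cos θ * (1 / c))) y := h2.sin.const_mul (c * A x)
    have h4 : c * A x * (Real.cos θ * (1 / c)) = A x * Real.cos θ := by
      field_simp
    rw [h4] at h3
    exact h3
  have hy2' : (fderiv ℝ Φ (x, y) (0, 1)) 2 = 0 := by
    rw [fderiv_euclidean_apply Φ _ _ hdiff 2]
    apply fderiv_apply_zero_one _ x y _ (hcomp 2)
    show HasDerivAt (fun _ => h x) _ y
    exact hasDerivAt_const y (h x)
  have hcs : Real.cos θ ^ 2 + Real.sin θ ^ 2 = 1 := Real.cos_sq_add_sin_sq θ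
  have hsq : Real.sqrt (ρ x) ^ 2 = ρ x := Real.sq_sqrt hq'.le
  have hGx := hGpos x
  have hAψ : A x ^ 2 * ψ x = F x := by
    rw [hAsq x]; show G x * (F x / G x) = F x; field_simp
  have hAψ2 : A x ^ 2 * ψ x ^ 2 = F x ^ 2 / G x := by
    rw [hAsq x]; show G x * (F x / G x) ^ 2 = F x ^ 2 / G x; field_simp
  have hρx : ρ x = E x - F x ^ 2 / G x - c ^ 2 * A' x ^ 2 := rfl
  refine ⟨?_, ?_, ?_⟩
  · rw [PiLp.inner_apply, Fin.sum_univ_three]
    simp only [hx0', hx1', hx2', RCLike.inner_apply, conj_trivial]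
    show _ = E x
    have : (c * A' x * Real.cos θ - A x * ψ x * Real.sin θ) * (c * A' x * Real.cos θ - A x * ψ x * Real.sin θ)
        + (c * A' x * Real.sin θ + A x * ψ x * Real.cos θ) * (c * A' x * Real.sin θ + A x * ψ x * Real.cos θ)
        + Real.sqrt (ρ x) * Real.sqrt (ρ x)
        = (c ^ 2 * A' x ^ 2 + A x ^ 2 * ψ x ^ 2) * (Real.cos θ ^ 2 + Real.sin θ ^ 2) + Real.sqrt (ρ x) ^ 2 := by ring
    rw [this, hcs, hsq, hAψ2, hρx]
    ring
  · rw [PiLp.inner_apply, Fin.sum_univ_three]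
    simp only [hx0', hx1', hx2', hy0', hy1', hy2', RCLike.inner_apply, conj_trivial]
    show _ = F x
    have : -(A x * Real.sin θ) * (c * A' x * Real.cos θ - A x * ψ x * Real.sin θ)
        + A x * Real.cos θ * (c * A' x * Real.sin θ + A x * ψ x * Real.cos θ)
        + 0 * Real.sqrt (ρ x)
        = (A x ^ 2 * ψ x) * (Real.cos θ ^ 2 + Real.sin θ ^ 2) := by ring
    rw [this, hcs, hAψ]
    ring
  · rw [PiLp.inner_apply, Fin.sum_univ_three]
    simp only [hy0', hy1', hy2', RCLike.inner_apply, conj_trivial]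
    show _ = G x
    have : -(A x * Real.sin θ) * -(A x * Real.sin θ)
        + A x * Real.cos θ * (A x * Real.cos θ) + 0 * 0
        = (A x ^ 2) * (Real.cos θ ^ 2 + Real.sin θ ^ 2) := by ring
    rw [this, hcs, hAsq x]
    ring

end Vale.Agent.Results.P229.OneCoordinateMetric
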